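import Mathlib
import Vale.Agent.P052.Cone
import Vale.Agent.P052.Count
import Vale.Agent.P052.HClq

/-!
# P052: Borsuk's conjecture fails in dimension 63 (and in every larger dimension)
-/

namespace Vale.Agent.Results.P052.BorsukDim63

/-- `Y` is a union of `k` subsets, each of diameter strictly smaller than `diam Y`. -/
def IsUnionOfSmaller {d : ℕ} (Y : Set (EuclideanSpace ℝ (Fin d))) (k : ℕ) : Prop :=
  ∃ X : Fin k → Set (EuclideanSpace ℝ (Fin d)),
    Y = ⋃ i, X i ∧ ∀ i, Metric.diam (X i) < Metric.diam Y

/-- Borsuk's conjecture in dimension `d`: every bounded set of positive diameter is a union of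
`d + 1` subsets of smaller diameter. -/
def BorsukConjecture (d : ℕ) : Prop :=
  ∀ Y : Set (EuclideanSpace ℝ (Fin d)), Bornology.IsBounded Y → 0 < Metric.diam Y →
    IsUnionOfSmaller Y (d + 1)

/-- Borsuk's conjecture fails in every dimension `d ≥ 63`. -/
theorem result : ∀ d : ℕ, 63 ≤ d → ¬ BorsukConjecture d := by
  intro d hd hB
  rcases Nat.lt_or_ge d 64 with h | h
  · have hd' : d = 63 := by omega
    subst hd'
    obtain ⟨Y, hfin, hpos, hY⟩ := Vale.Agent.P052.borsuk_of_graph
      (adj := Vale.Agent.P052.Adj) (c := Vale.Agent.P052.cls)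
      Vale.Agent.P052.adj_symm (by simp) Vale.Agent.P052.h2_real Vale.Agent.P052.adj_irrefl
      Vale.Agent.P052.hn_real Vale.Agent.P052.hb_real 320 (by decide)
      (by
        intro s hs hadj
        apply Vale.Agent.P052.hclq s _ hadj
        intro v hv
        rcases hs v hv with h0 | h0
        · unfold Vale.Agent.P052.cls at h0
          split_ifs at h0 with h1 h2 h3
          · omega
          · exact absurd h0 (by decide)
          · exact absurd h0 (by decide)
          · exact absurd h0 (by decide)
        · rw [h0]; decide)
    exact hY 64 le_rfl (hB Y hfin.isBounded hpos)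
  · have hcfg : Vale.Agent.P052.Cfg 64 := Vale.Agent.P052.cfg64_of_graph
      (adj := Vale.Agent.P052.Adj) (c := Vale.Agent.P052.cls)
      Vale.Agent.P052.adj_symm (by simp) Vale.Agent.P052.h2_real Vale.Agent.P052.adj_irrefl
      Vale.Agent.P052.hn_real Vale.Agent.P052.hb_real
      (by
        intro s hs hadj
        apply Vale.Agent.P052.hclq s _ hadj
        intro v hv
        rcases hs v hv with h0 | h0
        all_goals
          unfold Vale.Agent.P052.cls at h0
          split_ifs at h0 with h1 h2 h3
          · omega
          · omega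
          · exact absurd h0 (by decide)
          · exact absurd h0 (by decide))
    obtain ⟨Y, hfin, hpos, hY⟩ := (hcfg.mono h).not_cutsInto
    exact hY (hB Y hfin.isBounded hpos)

end Vale.Agent.Results.P052.BorsukDim63
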